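import Vale.Agent.P267.H692.Cone4
import Vale.Agent.P267.H439.DivMan
import Vale.Agent.P267.H456.Assembly

/-!
# P267, package XT-CONE: the final theorem `cone : Asm.ConeThm` (helper692, with helper439's
division lemma)
-/

open scoped Manifold ContDiff Topology
open Set Filter

noncomputable section

namespace Vale.Agent.P267.H692

open Vale.Agent.P267.FL Vale.Agent.P267.XT

/-- helper439's division lemma in the form used in `Iface.lean` -/
theorem divLocal_of {M : Type} [TopologicalSpace M] [T2Space M] [ChartedSpace C2 M]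
    [IsManifold 𝓘(ℂ, C2) ω M] {ι : Type} [Fintype ι] [DecidableEq ι] {L : LB M ι}
    {a : M → Fin 2 → ℂ} (ha : Reg1 ∞ 0 a) {α : M → EuclideanSpace ℂ ι} (hα : Reg0 ∞ 0 α)
    (hs : L.Sec α) (hh : ∀ x i, L.db0 a 0 α x i = 0) (hd : Dense {x | α x ≠ 0}) :
    DivLocal L α := by
  intro U F hU hF hFc hFU
  obtain ⟨b₀, w', h1, h2, h3, h4, h5, h6, h7, h8⟩ :=
    H439.divLocal ha hα hs hh hd U F hU hF hFc hFU
  exact ⟨b₀, w', h1, h2, h3, h4, h5, h6, h7, fun x => h8 x⟩

/-- **package XT-CONE** -/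
theorem cone : Asm.ConeThm := by
  intro M _ _ _ _ D ι _ _ L a i₀ R α d d' H
  exact ⟨H.pole, H.endStatement (divLocal_of H.hol.1 H.α_reg H.α_sec H.α_hol H.α_dense)⟩

end Vale.Agent.P267.H692
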